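import Vale.Agent.P223.H566.FinV
import Vale.Agent.P223.H566.LocV
import Vale.Agent.P223.H566.TruL
import Vale.Agent.P223.H566.PolL
import Vale.Agent.P223.H316.Liou2
import Vale.Agent.P223.H316.ChdL
import Vale.Agent.P223.H316.V2
import Vale.Agent.P223.H316.LT2
import Vale.Agent.P223.H440.GA3
import Vale.Agent.P223.H440.NL6
import Vale.Agent.P223.H765.KazL2
import Vale.Agent.P223.H765.Cut2
import Vale.Agent.P223.H765.Den
import Vale.Agent.P223.H391.V7
import Vale.Agent.P223.H391.V8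

/-! Stage 5: all blocks together. -/

namespace Vale.Agent.P223.H566

open MeasureTheory
open Vale.Agent.P223.H566.NV
open Vale.Agent.P223.H765.NC (SpecFlow)

/-- Theorem V. -/
theorem specV : SpecV := by
  have hF : SpecFlow := H316.specFlow'
  have hL : SpecLiouL := H316.specLiouL
  have hP : SpecPolL := PolL.specPolL hF hL
  have hK : SpecKazL := H765.KazL.specKazL hF hL
  have hC : SpecChdL := H316.ChL.specChdL hF hL hK hP
  have hT : SpecTruL := TruL.specTruL hF hL hC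
  have hD : SpecDst := H440.NL.specDst
  have hG : SpecGeoL := H440.NL.specGeoL hD
  have hLT : SpecLT := H316.LT.specLT hT hG hD
  have hLoc : SpecLoc := LocV.specLoc hLT (H765.Cut.specCut hD)
  exact H391.specV (H391.specSobV (Iso.specIso hLoc (H765.Den.specDen hD)))

/-- The final theorem. -/
theorem final (n : ℕ) (hn : 3 ≤ n) : ∃ A : ℝ, 0 < A ∧
    ∀ (M : Type) [TopologicalSpace M] [CompactSpace M] [T2Space M] [ConnectedSpace M]
      [MeasurableSpace M] [BorelSpace M] (c : M → J.Ch n M), J.Atl c →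
      ∀ (g : M → J.Mtx n) (μ : Measure M), J.Met c g → J.Vol c g μ →
      ∀ (g₁ : M → J.Mtx n) (K : ℝ), J.Met c g₁ → 1 ≤ K → J.Bil c g₁ g K →
      ((∃ g₀, J.Met c g₀ ∧ J.CovSpin c g₀) →
        ∀ r : M → ℝ, J.Lip1 c g₁ r → (∀ p, 0 < r p) → J.InjGe c g₁ r →
        (∀ ε : ℝ, 0 < ε → ε ≤ 1 →
          J.sv c ≤ ENNReal.ofReal (A * K ^ ((n : ℝ) ^ 2 / 2) * ε ^ (-(n : ℝ) / 2)) *
            J.L n μ (fun p => max 0 (ε / r p ^ 2 - J.scal (g p) (c p p)))) ∧
        ∀ s κ : ℝ, 0 < s → (∀ p, J.scal (g p) (c p p) ≤ -s ∧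
            1 / r p ^ 2 - J.scal (g p) (c p p) ≤ κ) →
          ∀ (f : M → ℝ) (μ' : Measure M), J.Sm c f → J.Vol c (J.conf c f g) μ' →
            J.sv c ≤ ENNReal.ofReal (A * K ^ ((n : ℝ) ^ 2 / 2) * (κ / s) ^ ((n : ℝ) / 2)) *
              J.L n μ' (J.sn c (J.conf c f g))) ∧
      (J.NoConj c g₁ →
        J.sv c ≤ ENNReal.ofReal (A * K ^ ((n : ℝ) ^ 2 / 2)) * J.L n μ (J.sn c g) ∧
        ∀ s κ : ℝ, 0 < s → (∀ p, -κ ≤ J.scal (g p) (c p p) ∧ J.scal (g p) (c p p) ≤ -s) →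
          ∀ (f : M → ℝ) (μ' : Measure M), J.Sm c f → J.Vol c (J.conf c f g) μ' →
            J.sv c ≤ ENNReal.ofReal (A * K ^ ((n : ℝ) ^ 2 / 2) * (κ / s) ^ ((n : ℝ) / 2)) *
              J.L n μ' (J.sn c (J.conf c f g))) :=
  FinV.final specV n hn

end Vale.Agent.P223.H566
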