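import Vale.Agent.P223.H566.NV
import Vale.Agent.P223.H440.Fin5

/-! The final theorem of Stage 5: injectivity radius, and metrics without conjugate points. -/

namespace Vale.Agent.P223.H566.FinV

open MeasureTheory
open Vale.Agent.P223.H566.NV

theorem scal_add (S ρ : ℝ) (hρ : 0 < ρ) : max 0 (-S) + max 0 (ρ - max 0 S) = max 0 (ρ - S) := by
  rcases le_total 0 S with h | h
  · rw [max_eq_left (show -S ≤ 0 by linarith), max_eq_right h, zero_add]
  · rw [max_eq_right (show 0 ≤ -S by linarith), max_eq_left h, sub_zero, max_eq_right hρ.le,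
      max_eq_right (by linarith)]
    ring

/-- The final theorem. -/
theorem final (hV : SpecV) (n : ℕ) (hn : 3 ≤ n) : ∃ A : ℝ, 0 < A ∧
    ∀ (M : Type) [TopologicalSpace M] [CompactSpace M] [T2Space M] [ConnectedSpace M]
      [MeasurableSpace M] [BorelSpace M] (c : M → J.Ch n M), J.Atl c →
      ∀ (g : M → J.Mtx n) (μ : Measure M), J.Met c g → J.Vol c g μ →
      ∀ (g₁ : M → J.Mtx n) (K : ℝ), J.Met c g₁ → 1 ≤ K → J.Bil c g₁ g K →
      ((∃ g₀, J.Met c g₀ ∧ J.CovSpin c g₀) →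
        ∀ r : M → ℝ, J.Lip1 c g₁ r → (∀ p, 0 < r p) → J.InjGe c g₁ r →
        (∀ ε : ℝ, 0 < ε → ε ≤ 1 →
          J.sv c ≤ ENNReal.ofReal (A * K ^ ((n : ℝ) ^ 2 / 2) * ε ^ (-(n : ℝ) / 2)) *
            J.L n μ (fun p => max 0 (ε / r p ^ 2 - J.scal (g p) (c p p)))) ∧
        ∀ s κ : ℝ, 0 < s → (∀ p, J.scal (g p) (c p p) ≤ -s ∧
            1 / r p ^ 2 - J.scal (g p) (c p p) ≤ κ) →
          ∀ (f : M → ℝ) (μ' : Measure M), J.Sm c f → J.Vol c (J.conf c f g) μ' →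
            J.sv c ≤ ENNReal.ofReal (A * K ^ ((n : ℝ) ^ 2 / 2) * (κ / s) ^ ((n : ℝ) / 2)) *
              J.L n μ' (J.sn c (J.conf c f g))) ∧
      (J.NoConj c g₁ →
        J.sv c ≤ ENNReal.ofReal (A * K ^ ((n : ℝ) ^ 2 / 2)) * J.L n μ (J.sn c g) ∧
        ∀ s κ : ℝ, 0 < s → (∀ p, -κ ≤ J.scal (g p) (c p p) ∧ J.scal (g p) (c p p) ≤ -s) →
          ∀ (f : M → ℝ) (μ' : Measure M), J.Sm c f → J.Vol c (J.conf c f g) μ' →
            J.sv c ≤ ENNReal.ofReal (A * K ^ ((n : ℝ) ^ 2 / 2) * (κ / s) ^ ((n : ℝ) / 2)) *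
              J.L n μ' (J.sn c (J.conf c f g))) := by
  obtain ⟨A₁, hA₁, h1⟩ := hV n hn
  obtain ⟨A₂, hA₂, h2⟩ := H440.finalNC n hn
  refine ⟨max A₁ A₂, lt_max_of_lt_left hA₁, ?_⟩
  intro M _ _ _ _ _ _ c hc g μ hg hμ g₁ K hg₁ hK hb
  have hK0 : 0 < K := by linarith
  have hKp : 0 < K ^ ((n : ℝ) ^ 2 / 2) := Real.rpow_pos_of_pos hK0 _
  -- enlarging the constant
  have hmono₁ : ∀ {t : ℝ} {L : ENNReal}, 0 ≤ t → J.sv c ≤
      ENNReal.ofReal (A₁ * K ^ ((n : ℝ) ^ 2 / 2) * t) * L →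
      J.sv c ≤ ENNReal.ofReal (max A₁ A₂ * K ^ ((n : ℝ) ^ 2 / 2) * t) * L := by
    intro t L ht h
    refine h.trans ?_
    gcongr
    exact le_max_left _ _
  have hmono₂ : ∀ {t : ℝ} {L : ENNReal}, 0 ≤ t → J.sv c ≤
      ENNReal.ofReal (A₂ * K ^ ((n : ℝ) ^ 2 / 2) * t) * L →
      J.sv c ≤ ENNReal.ofReal (max A₁ A₂ * K ^ ((n : ℝ) ^ 2 / 2) * t) * L := by
    intro t L ht h
    refine h.trans ?_
    gcongr
    exact le_max_right _ _
  refine ⟨fun hS r hr hr0 hinj => ⟨fun ε hε hε1 => ?_, fun s κ hs hsκ f μ' hf hμ' => ?_⟩,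
    fun hNC => ?_⟩
  · exact hmono₁ (Real.rpow_nonneg hε.le _)
      (h1 M c hc hS g g₁ μ r K ε hg hμ hg₁ hr hr0 hinj hK hb hε hε1)
  · have h3 := h1 M c hc hS g g₁ μ r K 1 hg hμ hg₁ hr hr0 hinj hK hb one_pos le_rfl
    have h4 : ∀ p, J.sn c g p + max 0 (1 / r p ^ 2 - max 0 (J.scal (g p) (c p p))) =
        max 0 (1 / r p ^ 2 - J.scal (g p) (c p p)) := fun p => by
      have := hr0 p
      exact scal_add _ _ (by positivity)
    have h5 := H440.L_conf hn hc hg hμ hs (fun p => (hsκ p).1)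
      (β := fun p => max 0 (1 / r p ^ 2 - max 0 (J.scal (g p) (c p p))))
      (fun p => le_max_left _ _) (κ := κ) (fun p => by
        rw [h4]
        refine max_le ?_ (hsκ p).2
        have h6 := hsκ p
        have h7 := hr0 p
        have h8 : 0 < 1 / r p ^ 2 := by positivity
        linarith) hf hμ'
    simp only [h4] at h5
    have hκ : 0 ≤ κ / s := by
      obtain ⟨p⟩ : Nonempty M := inferInstance
      have h6 := hsκ p
      have h7 := hr0 p
      have h8 : 0 < 1 / r p ^ 2 := by positivity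
      exact div_nonneg (by linarith) hs.le
    refine hmono₁ (Real.rpow_nonneg hκ _) (h3.trans ?_)
    rw [Real.one_rpow, mul_one, ENNReal.ofReal_mul (mul_nonneg hA₁.le hKp.le), mul_assoc]
    exact mul_le_mul_right h5 _
  · obtain ⟨h3, h4⟩ := h2 M c hc g μ hg hμ g₁ K hg₁ hNC hK hb
    refine ⟨?_, fun s κ hs hsκ f μ' hf hμ' => ?_⟩
    · have h3' : J.sv c ≤ ENNReal.ofReal (A₂ * K ^ ((n : ℝ) ^ 2 / 2) * 1) *
          J.L n μ (J.sn c g) := by rwa [mul_one]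
      have h5 := hmono₂ zero_le_one h3'
      rwa [mul_one] at h5
    · have hκ : 0 ≤ κ / s := by
        obtain ⟨p⟩ : Nonempty M := inferInstance
        have h6 := hsκ p
        exact div_nonneg (by linarith) hs.le
      exact hmono₂ (Real.rpow_nonneg hκ _) (h4 s κ hs hsκ f μ' hf hμ')

end Vale.Agent.P223.H566.FinV
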